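import Vale.Agent.P207.H442.FrC
import Vale.Agent.P207.H442.Int

/-!
# P207 / H442: locally symmetric metrics: `R` is parallel, Einstein; integration on the frame bundle
-/

open scoped Manifold ContDiff ENNReal Topology
open Bundle MeasureTheory Set Filter VectorField

noncomputable section

set_option maxSynthPendingDepth 3
set_option linter.unusedSectionVars false

namespace Vale.Agent.P207.H442

open Vale.Agent.P255 (RMetric coefIn Gam Riem IsGeo Metric Npc ExpSys toMetric geo expg cc trans
  IsGeodesic coefL chris chrisB IsMetricOn covD curvOp)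
open Vale.Agent.P207 Vale.Agent.P207.Q Vale.Agent.P207.Q.H545 Vale.Agent.P207.Q.H743
open Vale.Agent.P207.D1 (LocSymOn curvT trL)

section Nab

variable {E : Type} [NormedAddCommGroup E] [NormedSpace ℝ E] [FiniteDimensional ℝ E]
variable {G : E → E →L[ℝ] E →L[ℝ] ℝ} {U : Set E}

theorem nabR_eq_zero (hS : LocSymOn G U) {u : E} (hu : u ∈ U) (w x y z : E) :
    nabR G u w x y z = 0 := by
  unfold nabR
  rw [hS u hu w x y z]
  abel

end Nab

section Trace

variable {n : ℕ} {G : EV n → EV n →L[ℝ] EV n →L[ℝ] ℝ} {U : Set (EV n)}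

theorem linInd_of_orth {B : EV n →L[ℝ] EV n →L[ℝ] ℝ} {e : Fin n → EV n} (ho : Orth B e) :
    LinearIndependent ℝ e := by
  rw [Fintype.linearIndependent_iff]
  intro c hc i
  have h1 := congrArg (fun z => B z (e i)) hc
  simp only [map_sum, map_smul, sum_apply, smul_apply, smul_eq_mul, map_zero, zero_apply] at h1
  simp only [fun j => ho j i, mul_ite, mul_one, mul_zero, Finset.sum_ite_eq',
    Finset.mem_univ, if_true] at h1
  exact h1

/-- the trace in an orthonormal frame -/
theorem trL_frame (h : IsMetricOn G U) {y : EV n × (Fin n → EV n)} (hy : y.1 ∈ U)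
    (ho : Orth (G y.1) y.2) (L : EV n →L[ℝ] EV n) :
    trL (EV n) L = ∑ a, G y.1 (L (y.2 a)) (y.2 a) := by
  have hcard : Fintype.card (Fin n) = Module.finrank ℝ (EV n) := by simp [EV]
  have hli : LinearIndependent ℝ y.2 := linInd_of_orth ho
  set b := basisOfLinearIndependentOfCardEqFinrank' y.2 hli hcard with hb
  have hbi : ∀ i, b i = y.2 i := fun i => by
    rw [hb, coe_basisOfLinearIndependentOfCardEqFinrank']
  have hrep : ∀ w a, b.repr w a = G y.1 w (y.2 a) := by
    intro w a
    have h1 := Brk.sum_orth h hy hcard ho w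
    have h2 : w = ∑ c, (G y.1 w (y.2 c)) • b c := by
      simp only [hbi]
      exact h1.symm
    conv_lhs => rw [h2]
    rw [b.repr_sum_self]
  rw [D1.trL_apply, LinearMap.trace_eq_matrix_trace ℝ b, Matrix.trace]
  refine Finset.sum_congr rfl fun a _ => ?_
  rw [Matrix.diag_apply, LinearMap.toMatrix_apply, hrep, hbi]
  rfl

end Trace

variable {n : ℕ} {M : Type} [TopologicalSpace M] [ChartedSpace (EV n) M]
  [IsManifold 𝓘(ℝ, EV n) ∞ M] {g : RMetric (EV n) M}
variable [NeZero n] [CompactSpace M] [T2Space M] [Nonempty (Fr g)]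

/-- **for a locally symmetric metric the curvature is parallel** -/
theorem par_frCalc (hs : LocSymmetric g) : (frCalc g).Par := by
  intro m i j k l
  apply ext_ev
  intro p
  have ha : p.pt ∈ (chartAt (EV n) p.pt).source := mem_chart_source _ _
  have hu : (chF p.pt p.1).1 ∈ (chartAt (EV n) p.pt).target := (chartAt (EV n) p.pt).map_source ha
  have h1 : ev p (Hd g m (Rs g i j k l)) =
      fderiv ℝ (RR ((mt g).coef p.pt) i j k l) (chF p.pt p.1)
        (hF ((mt g).coef p.pt) (Pi.single m 1) (chF p.pt p.1)) :=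
    rd_fderiv_eq (smF_Rf i j k l) ha (contDiffAt_RR_chF i j k l ha)
      (fun q hq => Rf_eq_RR q i j k l hq) ((horFlows g).hor m).isFlow
  change ev p (Hd g m (Rs g i j k l)) = 0
  rw [h1, hF_single, fderiv_RR_hor ((mt g).isMetricOn p.pt) hu,
    nabR_eq_zero (D1.locSymOn hs p.pt) hu, map_zero, zero_apply]

/-- the quadratic form of the Ricci tensor as a trace -/
theorem sum_Ric_mul (p : Fr g) (v : Fin n → ℝ) :
    ∑ i, ∑ j, v i * v j * ev p ((frCalc g).Ric i j) =
      trL (EV n) (curvOp ((mt g).coef p.pt) (chF p.pt p.1).1 (∑ i, v i • (chF p.pt p.1).2 i)) := by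
  have ha : p.pt ∈ (chartAt (EV n) p.pt).source := mem_chart_source _ _
  have hu : (chF p.pt p.1).1 ∈ (chartAt (EV n) p.pt).target := (chartAt (EV n) p.pt).map_source ha
  have hm := (mt g).isMetricOn p.pt
  rw [trL_frame hm hu (orth_chF ha)]
  have h1 : ∀ i j, ev p ((frCalc g).Ric i j) = ∑ c, Rf g p c i j c := by
    intro i j
    unfold FrCalc.Ric
    rw [ev_sum]
    refine Finset.sum_congr rfl fun c _ => ?_
    change ev p (Rs g i c c j) = _
    have h2 : Rs g i c c j = Rs g c j i c := (frCalc g).R_pair i c c j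
    have h3 : Rs g c j i c = Rs g i c c j := h2.symm
    change Rf g p i c c j = Rf g p c i j c
    have h4 := congrArg (ev p) ((frCalc g).R_anti i c c j)
    have h5 := congrArg (ev p) ((frCalc g).R_skew c i c j)
    rw [ev_neg] at h4 h5
    change Rf g p i c c j = -Rf g p c i c j at h4
    change Rf g p c i c j = -Rf g p c i j c at h5
    rw [h4, h5, neg_neg]
  have h2 : ∀ c, (mt g).coef p.pt (chF p.pt p.1).1
      (curvOp ((mt g).coef p.pt) (chF p.pt p.1).1 (∑ i, v i • (chF p.pt p.1).2 i)
        ((chF p.pt p.1).2 c)) ((chF p.pt p.1).2 c) = ∑ i, ∑ j, v i * v j * Rf g p c i j c := by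
    intro c
    rw [D1.curvOp_eq hm hu]
    simp only [map_sum, map_smul, sum_apply, smul_apply, smul_eq_mul]
    rw [Finset.sum_comm]
    refine Finset.sum_congr rfl fun i _ => ?_
    rw [Finset.mul_sum]
    refine Finset.sum_congr rfl fun j _ => ?_
    rw [Rf_eq_RR p c j i c ha, RR_apply]
    ring
  simp only [h1, h2, Finset.mul_sum]
  calc ∑ i, ∑ j, ∑ c, v i * v j * Rf g p c i j c
      = ∑ i, ∑ c, ∑ j, v i * v j * Rf g p c i j c :=
        Finset.sum_congr rfl fun i _ => Finset.sum_comm
    _ = _ := Finset.sum_comm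

theorem norm_sum_e (p : Fr g) (v : Fin n → ℝ) : (mt g).coef p.pt (chF p.pt p.1).1
    (∑ i, v i • (chF p.pt p.1).2 i) (∑ i, v i • (chF p.pt p.1).2 i) = ∑ i, v i ^ 2 := by
  have ha : p.pt ∈ (chartAt (EV n) p.pt).source := mem_chart_source _ _
  have ho := orth_chF (g := g) (p := p) ha
  generalize (mt g).coef p.pt (chF p.pt p.1).1 = B at ho ⊢
  generalize (chF p.pt p.1).2 = e at ho ⊢
  have ho' : ∀ i j, B (e i) (e j) = if i = j then 1 else 0 := ho
  simp only [map_sum, map_smul, sum_apply, smul_apply, smul_eq_mul, ho', mul_ite, mul_one,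
    mul_zero, Finset.sum_ite_eq', Finset.mem_univ, if_true]
  exact Finset.sum_congr rfl fun i _ => (sq _).symm

/-- **a locally symmetric metric of negative curvature on a connected manifold is Einstein** -/
theorem exists_einstein [ConnectedSpace M] (hn : 2 ≤ n) (h : NegCurvature g)
    (hs : LocSymmetric g) : ∃ c₀ : ℝ, 0 < c₀ ∧
      ∀ i j, (frCalc g).Ric i j = if i = j then -(c₀ • (1 : SmFr g)) else 0 := by
  obtain ⟨p₀⟩ := ‹Nonempty (Fr g)›
  set K : ℝ := trL (EV n) (curvOp ((mt g).coef p₀.pt) (chF p₀.pt p₀.1).1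
    ((chF p₀.pt p₀.1).2 0)) with hK
  have ha0 : p₀.pt ∈ (chartAt (EV n) p₀.pt).source := mem_chart_source _ _
  have hu0 : (chF p₀.pt p₀.1).1 ∈ (chartAt (EV n) p₀.pt).target :=
    (chartAt (EV n) p₀.pt).map_source ha0
  have ho0 := orth_chF (g := g) (p := p₀) ha0
  have key : ∀ (p : Fr g) (v : Fin n → ℝ), ∑ i, v i ^ 2 = 1 →
      ∑ i, ∑ j, v i * v j * ev p ((frCalc g).Ric i j) = K := by
    intro p v hv
    have ha : p.pt ∈ (chartAt (EV n) p.pt).source := mem_chart_source _ _
    have hu : (chF p.pt p.1).1 ∈ (chartAt (EV n) p.pt).target :=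
      (chartAt (EV n) p.pt).map_source ha
    rw [sum_Ric_mul]
    have h1 := D1.trL_const (by omega) h hs 1 hu hu0 ((norm_sum_e p v).trans hv)
      ((ho0 0 0).trans (if_pos rfl))
    rw [pow_one, pow_one] at h1
    exact h1
  have hdiag : ∀ (p : Fr g) (i : Fin n), ev p ((frCalc g).Ric i i) = K := by
    intro p i
    have h1 := key p (Pi.single i 1) (by
      rw [Finset.sum_eq_single i]
      · simp
      · intro j _ hj; simp [hj]
      · intro hh; exact absurd (Finset.mem_univ i) hh)
    rw [Finset.sum_eq_single i, Finset.sum_eq_single i] at h1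
    · simpa using h1
    · intro j _ hj; simp [hj]
    · intro hh; exact absurd (Finset.mem_univ i) hh
    · intro j _ hj; simp [hj]
    · intro hh; exact absurd (Finset.mem_univ i) hh
  have hoff : ∀ (p : Fr g) (i j : Fin n), i ≠ j → ev p ((frCalc g).Ric i j) = 0 := by
    intro p i j hij
    set r : ℝ := (Real.sqrt 2)⁻¹ with hr
    have hr2 : r * r = 1 / 2 := by
      rw [hr, ← mul_inv, Real.mul_self_sqrt (by norm_num)]
      norm_num
    have hv : ∀ k, (Pi.single i r + Pi.single j r : Fin n → ℝ) k =
        (if k = i then r else 0) + (if k = j then r else 0) := by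
      intro k
      simp only [Pi.add_apply, Pi.single_apply]
    have h1 := key p (Pi.single i r + Pi.single j r) (by
      simp only [hv]
      have e1 : ∀ k, ((if k = i then r else 0) + (if k = j then r else 0)) ^ 2 =
          (if k = i then r * r else 0) + (if k = j then r * r else 0) := by
        intro k
        by_cases h1 : k = i
        · have h2 : k ≠ j := fun h2 => hij (h1.symm.trans h2)
          simp [h1, hij]
          ring
        · by_cases h2 : k = j
          · subst h2
            simp [h1]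
            ring
          · simp [h1, h2]
      simp only [e1, Finset.sum_add_distrib, Finset.sum_ite_eq', Finset.mem_univ, if_true, hr2]
      norm_num)
    simp only [hv, add_mul, mul_add, ite_mul, zero_mul, mul_ite, mul_zero,
      Finset.sum_add_distrib, Finset.sum_ite_eq', Finset.mem_univ, if_true, hr2, hdiag] at h1
    have h2 : ev p ((frCalc g).Ric j i) = ev p ((frCalc g).Ric i j) := by
      rw [FrCalc.Ric_symm]
    rw [h2] at h1
    linarith
  have hneg : K < 0 := by
    have h1 := hdiag p₀ 0
    rw [← h1]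
    have h2 : ev p₀ ((frCalc g).Ric 0 0) = ∑ c, Rf g p₀ 0 c c 0 := by
      unfold FrCalc.Ric
      rw [ev_sum]
      rfl
    have hN := D1.negOn h p₀.pt
    have h3 : ∀ c, c ≠ 0 → Rf g p₀ 0 c c 0 < 0 := by
      intro c hc
      rw [Rf_eq_RR p₀ 0 c c 0 ha0, RR_apply]
      refine hN _ hu0 _ _ ?_
      have h4 := (linInd_of_orth ho0).comp ![0, c] (by
        intro i j hij
        fin_cases i <;> fin_cases j
        · rfl
        · exact absurd hij.symm hc
        · exact absurd hij hc
        · rfl)
      have h5 : (chF p₀.pt p₀.1).2 ∘ ![0, c] = ![(chF p₀.pt p₀.1).2 0, (chF p₀.pt p₀.1).2 c] := by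
        funext i
        fin_cases i <;> rfl
      rw [h5] at h4
      exact h4
    rw [h2]
    have h5 : Rf g p₀ 0 0 0 0 = 0 := by
      have h6 := congrArg (ev p₀) ((frCalc g).R_anti 0 0 0 0)
      rw [ev_neg] at h6
      change Rf g p₀ 0 0 0 0 = - Rf g p₀ 0 0 0 0 at h6
      linarith
    refine Finset.sum_neg' (fun c _ => ?_) ⟨⟨1, by omega⟩, Finset.mem_univ _, ?_⟩
    · by_cases hc : c = 0
      · rw [hc, h5]
      · exact (h3 c hc).le
    · refine h3 _ fun hh => ?_
      have := congrArg Fin.val hh
      simp at this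
  refine ⟨-K, by linarith, fun i j => ?_⟩
  apply ext_ev
  intro p
  by_cases hij : i = j
  · subst hij
    rw [if_pos rfl, hdiag, ev_neg, ev_smul, ev_one]
    ring
  · rw [if_neg hij, hoff p i j hij, ev_zero]

/-! ### integration -/

section Int

variable {m : Measure (UT g)} {mP : Measure (Fr g)} {φ : ℝ → UT g → UT g}

/-- the integral of the derivative along a measure preserving flow vanishes -/
theorem integral_dZ {Z : ChField g} {Ψ : ℝ → Fr g → Fr g} (h : IsFlow Z Ψ)
    (hc : Continuous fun q : ℝ × Fr g => Ψ q.1 q.2) [IsFiniteMeasure mP]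
    (hmp : ∀ t, MeasurePreserving (Ψ t) mP mP) {f : Fr g → ℝ} (hf : SmF f) :
    ∫ p, dZ Z f p ∂mP = 0 := by
  have hd := h.smF_dZ hf
  obtain ⟨B, hB⟩ : ∃ B, ∀ p, |f p| ≤ B := by
    have h1 := isCompact_univ.exists_bound_of_continuousOn
      (f := f) hf.continuous.continuousOn
    obtain ⟨B, hB⟩ := h1
    exact ⟨B, fun p => hB p (mem_univ p)⟩
  obtain ⟨B', hB'⟩ : ∃ B, ∀ p, |dZ Z f p| ≤ B := by
    have h1 := isCompact_univ.exists_bound_of_continuousOn
      (f := dZ Z f) hd.continuous.continuousOn
    obtain ⟨B, hB⟩ := h1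
    exact ⟨B, fun p => hB p (mem_univ p)⟩
  have hct : ∀ t, Continuous (Ψ t) := fun t => by
    have h2 : Continuous fun p : Fr g => ((t, p) : ℝ × Fr g) := Continuous.prodMk_right t
    exact hc.comp h2
  have hmeas : Measurable fun q : ℝ × Fr g => Ψ q.1 q.2 := hc.measurable
  have h1 : HasDerivAt (fun s => ∫ p, f (Ψ s p) ∂mP) (∫ p, dZ Z f (Ψ 0 p) ∂mP) 0 := by
    refine (hasDerivAt_integral_of_dominated_loc_of_deriv_le (μ := mP) (s := univ)
      (F := fun s p => f (Ψ s p)) (F' := fun s p => dZ Z f (Ψ s p))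
      (bound := fun _ => B') Filter.univ_mem ?_ ?_ ?_ ?_ (integrable_const _) ?_).2
    · exact Eventually.of_forall fun t => (hf.continuous.comp (hct t)).aestronglyMeasurable
    · exact (integrable_const B).mono' (hf.continuous.comp (hct 0)).aestronglyMeasurable
        (Eventually.of_forall fun p => hB _)
    · exact (hd.continuous.comp (hct 0)).aestronglyMeasurable
    · exact Eventually.of_forall fun p t _ => hB' _
    · exact Eventually.of_forall fun p t _ => h.hasDerivAt hf p t
  have h2 : (fun s => ∫ p, f (Ψ s p) ∂mP) = fun _ => ∫ p, f p ∂mP := by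
    funext s
    have h3 := integral_map (μ := mP) (hct s).measurable.aemeasurable
      (f := f) (hf.continuous.aestronglyMeasurable)
    rw [(hmp s).map_eq] at h3
    exact h3.symm
  rw [h2] at h1
  have h3 := h1.unique (hasDerivAt_const (0 : ℝ) _)
  simpa [h.zero] using h3

variable (mP) in
/-- the integral over the frame bundle -/
def intF [IsFiniteMeasure mP] : SmFr g →ₗ[ℝ] ℝ where
  toFun f := ∫ p, (f : C(Fr g, ℝ)) p ∂mP
  map_add' f h := by
    refine integral_add ?_ ?_
    · exact (f : C(Fr g, ℝ)).continuous.integrable_of_hasCompactSupport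
        (HasCompactSupport.of_compactSpace _)
    · exact (h : C(Fr g, ℝ)).continuous.integrable_of_hasCompactSupport
        (HasCompactSupport.of_compactSpace _)
  map_smul' c f := integral_const_mul c _

theorem intF_apply [IsFiniteMeasure mP] (f : SmFr g) :
    intF mP f = ∫ p, (f : C(Fr g, ℝ)) p ∂mP := rfl

/-- **the integral over the frame bundle is invariant** -/
theorem isInt_intF (hP : IsMP m mP) (hφ : IsGeoFlow g φ)
    (hmp : ∀ t, MeasurePreserving (φ t) m m) [IsFiniteMeasure mP] :
    (frCalc g).IsInt (intF mP) where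
  hor i f := integral_dZ ((horFlows g).hor i).isFlow ((horFlows g).cont i)
    (fun t => (horFlows g).mp hP hφ hmp i t) f.2
  ver a b f := integral_dZ (isFlow_ver (isGen_rot' a b)) (continuous_verFlow (isGen_rot' a b))
    (fun _ => hP.rot _) f.2

end Int

end Vale.Agent.P207.H442
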