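import Vale.Agent.P207.H442.Ten
import Vale.Agent.P207.Q.FrSys3
import Vale.Agent.P207.Q.H743.CurvSm
import Vale.Agent.P207.Q.H892.BrkFr

/-!
# P207 / H442: the calculus `FrCalc n (SmFr g)` of the orthonormal frame bundle of a closed manifold
-/

open scoped Manifold ContDiff ENNReal Topology
open Bundle MeasureTheory Set Filter VectorField

noncomputable section

set_option maxSynthPendingDepth 3
set_option linter.unusedSectionVars false

namespace Vale.Agent.P207.H442

open Vale.Agent.P255 (RMetric coefIn Gam Riem IsGeo Metric Npc ExpSys toMetric geo expg cc trans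
  IsGeodesic coefL chris chrisB IsMetricOn covD)
open Vale.Agent.P207 Vale.Agent.P207.Q Vale.Agent.P207.Q.H545 Vale.Agent.P207.Q.H743

variable {n : ℕ} {M : Type} [TopologicalSpace M] [ChartedSpace (EV n) M]
  [IsManifold 𝓘(ℝ, EV n) ∞ M] {g : RMetric (EV n) M}

/-! ### derivations along flows -/

section Flow

variable [NeZero n] {Z : ChField g} {Ψ : ℝ → Fr g → Fr g}

theorem dZ_mul (h : IsFlow Z Ψ) {f f' : Fr g → ℝ} (hf : SmF f) (hf' : SmF f') (p : Fr g) :
    dZ Z (fun p => f p * f' p) p = f p * dZ Z f' p + f' p * dZ Z f p := by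
  have h1 := h.hasDerivAt (hf.mul hf') p 0
  have h2 := (h.hasDerivAt hf p 0).mul (h.hasDerivAt hf' p 0)
  rw [h.zero] at h1 h2
  have h3 := h1.unique h2
  rw [h3]
  ring

theorem dZ_add (h : IsFlow Z Ψ) {f f' : Fr g → ℝ} (hf : SmF f) (hf' : SmF f') (p : Fr g) :
    dZ Z (fun p => f p + f' p) p = dZ Z f p + dZ Z f' p := by
  have h1 := h.hasDerivAt (hf.add hf') p 0
  have h2 := (h.hasDerivAt hf p 0).add (h.hasDerivAt hf' p 0)
  rw [h.zero] at h1 h2
  exact h1.unique h2

theorem dZ_const_mul (h : IsFlow Z Ψ) {f : Fr g → ℝ} (hf : SmF f) (c : ℝ) (p : Fr g) :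
    dZ Z (fun p => c * f p) p = c * dZ Z f p := by
  have h1 := h.hasDerivAt ((SmF.const c).mul hf) p 0
  have h2 := (h.hasDerivAt hf p 0).const_mul c
  rw [h.zero] at h1 h2
  exact h1.unique h2

theorem dZ_one (h : IsFlow Z Ψ) (p : Fr g) : dZ Z (fun _ : Fr g => (1 : ℝ)) p = 0 := by
  have h1 := h.hasDerivAt (SmF.const (1 : ℝ)) p 0
  rw [h.zero] at h1
  exact h1.unique (hasDerivAt_const 0 1)

/-- the derivation along a flow -/
def flowDer (h : IsFlow Z Ψ) : Derivation ℝ (SmFr g) (SmFr g) where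
  toFun f := ⟨⟨dZ Z (fun p => (f : C(Fr g, ℝ)) p), (h.smF_dZ f.2).continuous⟩, h.smF_dZ f.2⟩
  map_add' f f' := by
    apply Subtype.ext
    ext p
    exact dZ_add h f.2 f'.2 p
  map_smul' c f := by
    apply Subtype.ext
    ext p
    exact dZ_const_mul h f.2 c p
  map_one_eq_zero' := by
    apply Subtype.ext
    ext p
    exact dZ_one h p
  leibniz' f f' := by
    apply Subtype.ext
    ext p
    exact dZ_mul h f.2 f'.2 p

theorem flowDer_apply (h : IsFlow Z Ψ) (f : SmFr g) (p : Fr g) :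
    (flowDer h f : C(Fr g, ℝ)) p = dZ Z (fun p => (f : C(Fr g, ℝ)) p) p := rfl

theorem coe_flowDer (h : IsFlow Z Ψ) (f : SmFr g) :
    (fun p => (flowDer h f : C(Fr g, ℝ)) p) = dZ Z (fun p => (f : C(Fr g, ℝ)) p) := rfl

end Flow

/-! ### vertical fields -/

section Ver

theorem isGen_rot' (i j : Fin n) : IsGen (Brk.rot (ι := Fin n) i j) := by
  by_cases hij : i = j
  · subst hij
    have h0 : Brk.rot (ι := Fin n) i i = 0 := by simp [Brk.rot]
    rw [h0]
    exact ⟨by simp, by simp⟩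
  · exact isGen_rot hij

theorem rot_apply (a b i j : Fin n) : Brk.rot (ι := Fin n) a b i j =
    (if a = i then (if b = j then 1 else 0) else 0)
      - (if b = i then (if a = j then 1 else 0) else 0) := by
  simp only [Brk.rot, Matrix.sub_apply, Matrix.single_apply, ite_and]

theorem sum_rot_mul (a b k : Fin n) (T : Fin n → ℝ) :
    ∑ d, Brk.rot (ι := Fin n) a b d k * T d = ac a b T k := by
  simp only [rot_apply, ac, sub_mul, ite_mul, one_mul, zero_mul, Finset.sum_sub_distrib,
    Finset.sum_ite_eq, Finset.mem_univ, if_true]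

variable (g) in
/-- the derivative of a function along the vertical field of a matrix is linear in the matrix -/
def verLin (f : Fr g → ℝ) (p : Fr g) : Matrix (Fin n) (Fin n) ℝ →ₗ[ℝ] ℝ where
  toFun A := dZ (verZ g A) f p
  map_add' A B := by
    unfold dZ
    rw [verZ_Z, verZ_Z, verZ_Z, ← map_add]
    congr 1
    refine Prod.ext ?_ ?_
    · simp [Brk.ver]
    · funext c
      simp [Brk.ver, add_smul, Finset.sum_add_distrib]
  map_smul' c A := by
    unfold dZ
    rw [verZ_Z, verZ_Z, RingHom.id_apply, ← map_smul]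
    congr 1
    refine Prod.ext ?_ ?_
    · simp [Brk.ver]
    · funext d
      simp [Brk.ver, smul_smul, Finset.smul_sum]

theorem verLin_apply (f : Fr g → ℝ) (p : Fr g) (A : Matrix (Fin n) (Fin n) ℝ) :
    verLin g f p A = dZ (verZ g A) f p := rfl

variable [NeZero n]

/-- `[V_A, V_B] = V_{AB-BA}` -/
theorem bracket_ver_ver' {A B : Matrix (Fin n) (Fin n) ℝ} (hA : IsGen A) (hB : IsGen B)
    {f : Fr g → ℝ} (hf : SmF f) (p : Fr g) :
    dZ (verZ g A) (dZ (verZ g B) f) p - dZ (verZ g B) (dZ (verZ g A) f) p =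
      dZ (verZ g (A * B - B * A)) f p := by
  have ha : p.pt ∈ (chartAt (EV n) p.pt).source := mem_chart_source _ _
  rw [(isFlow_ver hA).bracket (isFlow_ver hB) hf ha]
  change fderiv ℝ (rd f p.pt) (chF p.pt p.1)
    (lieBracket ℝ (Brk.ver A) (Brk.ver B) (chF p.pt p.1)) = _
  rw [Brk.lieBracket_ver_ver]
  rfl

end Ver

/-- Kronecker symbol -/
def dl (i j : Fin n) : ℝ := if i = j then 1 else 0

theorem dl_comm (i j : Fin n) : dl i j = dl j i := by
  unfold dl
  simp only [eq_comm]

theorem sum_dl_mul (a : Fin n) (T : Fin n → ℝ) : ∑ x, dl a x * T x = T a := by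
  simp only [dl, ite_mul, one_mul, zero_mul, Finset.sum_ite_eq, Finset.mem_univ, if_true]

theorem rot_dl (a b i j : Fin n) : Brk.rot (ι := Fin n) a b i j =
    dl a i * dl b j - dl b i * dl a j := by
  rw [rot_apply]
  simp only [dl]
  split_ifs <;> simp

theorem ac_dl (a b : Fin n) (T : Fin n → ℝ) (i : Fin n) :
    ac a b T i = dl b i * T a - dl a i * T b := by
  simp only [ac, dl]
  split_ifs <;> simp

/-- `[rot a b, rot k l]` -/
theorem rot_comm (a b k l : Fin n) :
    Brk.rot (ι := Fin n) a b * Brk.rot k l - Brk.rot k l * Brk.rot a b =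
      ac a b (fun k => Brk.rot (ι := Fin n) k l) k + ac a b (fun l => Brk.rot (ι := Fin n) k l) l := by
  ext i j
  have e0 : ∀ (T : Fin n → Matrix (Fin n) (Fin n) ℝ) (x : Fin n),
      (ac a b T x) i j = ac a b (fun x => T x i j) x := by
    intro T x
    simp only [ac, Matrix.sub_apply]
    split_ifs <;> simp
  have e1 : ∀ a b k l : Fin n, ∑ x, Brk.rot (ι := Fin n) a b i x * Brk.rot (ι := Fin n) k l x j =
      dl a i * (dl b k * dl l j - dl b l * dl k j) - dl b i * (dl a k * dl l j - dl a l * dl k j) := by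
    intro a b k l
    have h1 : ∀ x, Brk.rot (ι := Fin n) a b i x * Brk.rot (ι := Fin n) k l x j =
        dl a i * (dl b x * (dl k x * dl l j - dl l x * dl k j))
          - dl b i * (dl a x * (dl k x * dl l j - dl l x * dl k j)) := by
      intro x
      rw [rot_dl, rot_dl]
      ring
    simp only [h1, Finset.sum_sub_distrib, ← Finset.mul_sum, sum_dl_mul]
    rw [dl_comm k b, dl_comm l b, dl_comm k a, dl_comm l a]
  rw [Matrix.sub_apply, Matrix.mul_apply, Matrix.mul_apply, e1, e1, Matrix.add_apply, e0, e0,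
    ac_dl, ac_dl, rot_dl, rot_dl, rot_dl, rot_dl, dl_comm k a, dl_comm k b, dl_comm l a,
    dl_comm l b]
  ring

/-! ### the calculus -/

section Calc

variable [NeZero n] [CompactSpace M] [T2Space M] [Nonempty (Fr g)]

variable (g) in
/-- horizontal derivations -/
def Hd (i : Fin n) : Derivation ℝ (SmFr g) (SmFr g) := flowDer ((horFlows g).hor i).isFlow

variable (g) in
/-- rotations -/
def Vd (i j : Fin n) : Derivation ℝ (SmFr g) (SmFr g) := flowDer (isFlow_ver (isGen_rot' i j))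

variable (g) in
/-- the curvature components -/
def Rs (i j k l : Fin n) : SmFr g :=
  ⟨⟨fun f => Rf g f i j k l, (smF_Rf (g := g) i j k l).continuous⟩, smF_Rf i j k l⟩

theorem Rs_apply (i j k l : Fin n) (p : Fr g) : (Rs g i j k l : C(Fr g, ℝ)) p = Rf g p i j k l :=
  rfl

theorem Hd_apply (i : Fin n) (f : SmFr g) (p : Fr g) : (Hd g i f : C(Fr g, ℝ)) p =
    dZ (horZ g (Pi.single i 1)) (fun p => (f : C(Fr g, ℝ)) p) p := rfl

theorem Vd_apply (i j : Fin n) (f : SmFr g) (p : Fr g) : (Vd g i j f : C(Fr g, ℝ)) p =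
    dZ (verZ g (Brk.rot i j)) (fun p => (f : C(Fr g, ℝ)) p) p := rfl

/-- the derivative along a horizontal flow -/
theorem hasDerivAt_Hd {i : Fin n} {Φ : ℝ → Fr g → Fr g} (h : IsHorFlow g (Pi.single i 1) Φ)
    (f : SmFr g) (p : Fr g) (t : ℝ) :
    HasDerivAt (fun s => (f : C(Fr g, ℝ)) (Φ s p)) ((Hd g i f : C(Fr g, ℝ)) (Φ t p)) t :=
  h.isFlow.hasDerivAt f.2 p t

/-- the derivative along a rotation flow -/
theorem hasDerivAt_Vd {i j : Fin n} (hA : IsGen (Brk.rot (ι := Fin n) i j))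
    (f : SmFr g) (p : Fr g) (t : ℝ) :
    HasDerivAt (fun s => (f : C(Fr g, ℝ)) (verFlow hA s p))
      ((Vd g i j f : C(Fr g, ℝ)) (verFlow hA t p)) t :=
  (isFlow_ver hA).hasDerivAt f.2 p t

theorem fderiv_rd_eq {f : Fr g → ℝ} (hf : SmF f) {i : Fin n} {p : Fr g} {a : M}
    (ha : p.pt ∈ (chartAt (EV n) a).source) :
    dZ (horZ g (Pi.single i 1)) f p =
      fderiv ℝ (rd f a) (chF a p.1) (Brk.hor ((mt g).coef a) i (chF a p.1)) :=
  (fderiv_hor_eq ((horFlows g).hor i) hf ha).symm

/-- a chart formula for a function gives its derivative along the fields -/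
theorem rd_fderiv_eq {f : Fr g → ℝ} (hf : SmF f) {F : St (Fin n) n → ℝ} {p : Fr g} {a : M}
    (ha : p.pt ∈ (chartAt (EV n) a).source) (hF : DifferentiableAt ℝ F (chF a p.1))
    (hfF : ∀ q : Fr g, q.pt ∈ (chartAt (EV n) a).source → f q = F (chF a q.1))
    {Z : ChField g} {Ψ : ℝ → Fr g → Fr g} (h : IsFlow Z Ψ) :
    dZ Z f p = fderiv ℝ F (chF a p.1) (Z.Z a (chF a p.1)) := by
  have h0 : Ψ 0 p = p := h.zero p
  have ha0 : (Ψ 0 p).pt ∈ (chartAt (EV n) a).source := by rw [h0]; exact ha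
  have h1 := h.hasDerivAt hf p 0
  rw [h0] at h1
  have hF0 : HasFDerivAt F (fderiv ℝ F (chF a p.1)) (chF a (Ψ 0 p).1) := by
    rw [h0]; exact hF.hasFDerivAt
  have h2 := hF0.comp_hasDerivAt 0 (h.eqn a p 0 ha0)
  rw [h0] at h2
  have h3 : (fun r => f (Ψ r p)) =ᶠ[𝓝 0] (F ∘ fun r => chF a (Ψ r p).1) := by
    filter_upwards [h.eventually_source ha0] with r hr
    exact hfF _ hr
  exact h1.unique (h2.congr_of_eventuallyEq h3)

theorem contDiffAt_RR_chF (i j k l : Fin n) {p : Fr g} {a : M}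
    (ha : p.pt ∈ (chartAt (EV n) a).source) :
    DifferentiableAt ℝ (RR ((mt g).coef a) i j k l) (chF a p.1) :=
  (contDiffAt_RR ((mt g).isMetricOn a) ((chartAt (EV n) a).map_source ha) i j k l).differentiableAt
    (by simp)

/-- the value at a frame -/
def ev (p : Fr g) : SmFr g →ₗ[ℝ] ℝ where
  toFun f := (f : C(Fr g, ℝ)) p
  map_add' _ _ := rfl
  map_smul' _ _ := rfl

theorem ev_apply (p : Fr g) (f : SmFr g) : ev p f = (f : C(Fr g, ℝ)) p := rfl

theorem ext_ev {f h : SmFr g} (H : ∀ p, ev p f = ev p h) : f = h := by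
  apply Subtype.ext
  ext p
  exact H p

theorem ev_add (p : Fr g) (f h : SmFr g) : ev p (f + h) = ev p f + ev p h := rfl

theorem ev_sub (p : Fr g) (f h : SmFr g) : ev p (f - h) = ev p f - ev p h := rfl

theorem ev_neg (p : Fr g) (f : SmFr g) : ev p (-f) = -ev p f := rfl

theorem ev_mul (p : Fr g) (f h : SmFr g) : ev p (f * h) = ev p f * ev p h := rfl

theorem ev_smul (p : Fr g) (c : ℝ) (f : SmFr g) : ev p (c • f) = c * ev p f := rfl

theorem ev_zero (p : Fr g) : ev p (0 : SmFr g) = 0 := rfl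

theorem ev_one (p : Fr g) : ev p (1 : SmFr g) = 1 := rfl

theorem ev_sum {κ : Type*} (s : Finset κ) (p : Fr g) (f : κ → SmFr g) :
    ev p (∑ k ∈ s, f k) = ∑ k ∈ s, ev p (f k) := map_sum (ev p) f s

theorem ev_ac (p : Fr g) (a b : Fin n) (T : Fin n → SmFr g) (i : Fin n) :
    ev p (ac a b T i) = ac a b (fun i => ev p (T i)) i := ac_map (ev p) a b T i

/-- `[H_i, H_j] = (1/2) ∑ R_ijkl V_kl` -/
theorem bracket_hor_hor' {Ψ : Fin n → ℝ → Fr g → Fr g}
    (hΨ : ∀ i, IsHorFlow g (Pi.single i 1) (Ψ i)) {f : Fr g → ℝ} (hf : SmF f) (i j : Fin n)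
    (p : Fr g) :
    dZ (horZ g (Pi.single i 1)) (dZ (horZ g (Pi.single j 1)) f) p -
      dZ (horZ g (Pi.single j 1)) (dZ (horZ g (Pi.single i 1)) f) p =
      (1 / 2 : ℝ) * ∑ k, ∑ l, Rf g p i j k l * dZ (verZ g (Brk.rot k l)) f p := by
  have ha : p.pt ∈ (chartAt (EV n) p.pt).source := mem_chart_source _ _
  have hu : (chF p.pt p.1).1 ∈ (chartAt (EV n) p.pt).target := (chartAt (EV n) p.pt).map_source ha
  have hm := (mt g).isMetricOn p.pt
  rw [(hΨ i).isFlow.bracket (hΨ j).isFlow hf ha]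
  change fderiv ℝ (rd f p.pt) (chF p.pt p.1)
    (lieBracket ℝ (hF ((mt g).coef p.pt) (Pi.single i 1))
      (hF ((mt g).coef p.pt) (Pi.single j 1)) (chF p.pt p.1)) = _
  rw [hF_single, hF_single, Brk.lieBracket_hor_hor_orth hm hu (by simp [EV]) (orth_chF ha)]
  have h1 : (Matrix.of fun d c : Fin n => -((mt g).coef p.pt (chF p.pt p.1).1
      (D1.curvT ((mt g).coef p.pt) (chF p.pt p.1).1 ((chF p.pt p.1).2 i) ((chF p.pt p.1).2 j)
        ((chF p.pt p.1).2 c)) ((chF p.pt p.1).2 d))) =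
      (1 / 2 : ℝ) • ∑ k, ∑ l, Rf g p i j k l • Brk.rot (ι := Fin n) k l := by
    ext d c
    simp only [Matrix.of_apply, Matrix.smul_apply, Matrix.sum_apply, smul_eq_mul]
    have e1 : ∀ k l : Fin n, Rf g p i j k l * Brk.rot (ι := Fin n) k l d c =
        Rf g p i j k l * (dl k d * dl l c - dl l d * dl k c) := fun k l => by rw [rot_dl]
    have e2 : ∑ k, ∑ l, Rf g p i j k l * Brk.rot (ι := Fin n) k l d c =
        Rf g p i j d c - Rf g p i j c d := by
      simp only [e1, mul_sub, Finset.sum_sub_distrib]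
      congr 1
      · have e3 : ∀ k, ∑ l, Rf g p i j k l * (dl k d * dl l c) = dl d k * Rf g p i j k c := by
          intro k
          rw [← sum_dl_mul c (fun l => dl d k * Rf g p i j k l)]
          refine Finset.sum_congr rfl fun l _ => ?_
          rw [dl_comm k d, dl_comm l c]
          ring
        simp only [e3, sum_dl_mul]
      · have e3 : ∀ k, ∑ l, Rf g p i j k l * (dl l d * dl k c) = dl c k * Rf g p i j k d := by
          intro k
          rw [← sum_dl_mul d (fun l => dl c k * Rf g p i j k l)]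
          refine Finset.sum_congr rfl fun l _ => ?_
          rw [dl_comm k c, dl_comm l d]
          ring
        simp only [e3, sum_dl_mul]
    rw [e2]
    have e4 : Rf g p i j d c = - Rf g p i j c d := by
      rw [Rf_eq_RR p i j d c ha, Rf_eq_RR p i j c d ha]
      exact RR_skew hm hu i j d c
    have e5 : Rf g p i j c d = (mt g).coef p.pt (chF p.pt p.1).1
      (D1.curvT ((mt g).coef p.pt) (chF p.pt p.1).1 ((chF p.pt p.1).2 i) ((chF p.pt p.1).2 j)
        ((chF p.pt p.1).2 c)) ((chF p.pt p.1).2 d) := Rf_eq_RR p i j c d ha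
    rw [e4, ← e5]
    ring
  rw [h1]
  change verLin g f p ((1 / 2 : ℝ) • ∑ k, ∑ l, Rf g p i j k l • Brk.rot (ι := Fin n) k l) = _
  rw [map_smul, map_sum]
  simp only [map_sum, map_smul, smul_eq_mul, verLin_apply]

variable (g) in
/-- **the calculus of the orthonormal frame bundle** -/
def frCalc : FrCalc n (SmFr g) where
  H := Hd g
  V := Vd g
  R := Rs g
  V_swap i j f := by
    apply Subtype.ext
    ext p
    change dZ (verZ g (Brk.rot i j)) (fun p => (f : C(Fr g, ℝ)) p) p =
      - dZ (verZ g (Brk.rot j i)) (fun p => (f : C(Fr g, ℝ)) p) p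
    rw [← verLin_apply, ← verLin_apply, ← map_neg]
    congr 1
    simp [Brk.rot]
  VH' a b k f := by
    apply Subtype.ext
    ext p
    have h1 := bracket_ver_hor (isGen_rot' a b) (horFlows g).hor
      (f := fun p => (f : C(Fr g, ℝ)) p) f.2 k p
    simp only [smul_eq_mul] at h1
    rw [sum_rot_mul a b k (fun d => dZ (horZ g (Pi.single d 1)) (fun p => (f : C(Fr g, ℝ)) p) p)]
      at h1
    refine h1.trans ?_
    exact (ev_ac p a b (fun k => Hd g k f) k).symm
  VV' a b k l f := by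
    apply ext_ev
    intro p
    have h1 := bracket_ver_ver' (isGen_rot' a b) (isGen_rot' k l)
      (f := fun p => (f : C(Fr g, ℝ)) p) f.2 p
    rw [rot_comm] at h1
    refine h1.trans ?_
    change verLin g (fun p => (f : C(Fr g, ℝ)) p) p (ac a b (fun k => Brk.rot (ι := Fin n) k l) k
      + ac a b (fun l => Brk.rot (ι := Fin n) k l) l) = _
    rw [map_add, ac_map, ac_map, ev_add, ev_ac, ev_ac]
    rfl
  HH' i j f := by
    apply ext_ev
    intro p
    have h1 := bracket_hor_hor' (horFlows g).hor (f := fun p => (f : C(Fr g, ℝ)) p) f.2 i j p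
    refine h1.trans ?_
    rw [ev_smul]
    simp only [ev_sum, ev_mul]
    rfl
  R_anti i j k l := by
    apply ext_ev
    intro p
    have ha : p.pt ∈ (chartAt (EV n) p.pt).source := mem_chart_source _ _
    change Rf g p i j k l = - Rf g p j i k l
    rw [Rf_eq_RR p _ _ _ _ ha, Rf_eq_RR p _ _ _ _ ha]
    exact RR_anti ((mt g).isMetricOn p.pt) ((chartAt (EV n) p.pt).map_source ha) i j k l
  R_skew i j k l := by
    apply ext_ev
    intro p
    have ha : p.pt ∈ (chartAt (EV n) p.pt).source := mem_chart_source _ _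
    change Rf g p i j k l = - Rf g p i j l k
    rw [Rf_eq_RR p _ _ _ _ ha, Rf_eq_RR p _ _ _ _ ha]
    exact RR_skew ((mt g).isMetricOn p.pt) ((chartAt (EV n) p.pt).map_source ha) i j k l
  R_pair i j k l := by
    apply ext_ev
    intro p
    have ha : p.pt ∈ (chartAt (EV n) p.pt).source := mem_chart_source _ _
    change Rf g p i j k l = Rf g p k l i j
    rw [Rf_eq_RR p _ _ _ _ ha, Rf_eq_RR p _ _ _ _ ha]
    exact RR_pair ((mt g).isMetricOn p.pt) ((chartAt (EV n) p.pt).map_source ha) i j k l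
  R_bianchi i j k l := by
    apply ext_ev
    intro p
    have ha : p.pt ∈ (chartAt (EV n) p.pt).source := mem_chart_source _ _
    change Rf g p i j k l + Rf g p j k i l + Rf g p k i j l = 0
    rw [Rf_eq_RR p _ _ _ _ ha, Rf_eq_RR p _ _ _ _ ha, Rf_eq_RR p _ _ _ _ ha]
    exact RR_bianchi1 ((mt g).isMetricOn p.pt) ((chartAt (EV n) p.pt).map_source ha) i j k l
  VR a b i j k l := by
    apply ext_ev
    intro p
    have ha : p.pt ∈ (chartAt (EV n) p.pt).source := mem_chart_source _ _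
    have hu : (chF p.pt p.1).1 ∈ (chartAt (EV n) p.pt).target :=
      (chartAt (EV n) p.pt).map_source ha
    have h1 : ev p (Vd g a b (Rs g i j k l)) =
        fderiv ℝ (RR ((mt g).coef p.pt) i j k l) (chF p.pt p.1)
          (Brk.ver (Brk.rot (ι := Fin n) a b) (chF p.pt p.1)) :=
      rd_fderiv_eq (smF_Rf i j k l) ha (contDiffAt_RR_chF i j k l ha)
        (fun q hq => Rf_eq_RR q i j k l hq) (isFlow_ver (isGen_rot' a b))
    rw [h1, fderiv_RR_ver ((mt g).isMetricOn p.pt) hu]
    simp only [← Rf_eq_RR p _ _ _ _ ha, Finset.sum_add_distrib]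
    rw [sum_rot_mul a b i (fun d => Rf g p d j k l), sum_rot_mul a b j (fun d => Rf g p i d k l),
      sum_rot_mul a b k (fun d => Rf g p i j d l), sum_rot_mul a b l (fun d => Rf g p i j k d)]
    simp only [ev_add, ev_ac]
    rfl

end Calc

end Vale.Agent.P207.H442
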