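import Vale.Agent.P207.H442.QGeo
import Vale.Agent.P207.H575.Quat

/-!
# P207 / H442: LAM and C1 for the quaternionic metrics
-/

open scoped Manifold ContDiff ENNReal Topology RealInnerProductSpace
open Bundle MeasureTheory Set Filter Module

set_option maxSynthPendingDepth 3
set_option linter.unusedSectionVars false

noncomputable section

namespace Vale.Agent.P207.H442

open Vale.Agent.P255 (RMetric)
open Vale.Agent.P207 Vale.Agent.P207.Q Vale.Agent.P207.Q.H545
open Vale.Agent.P207.H747 (ACT En ee act act_R exists_rank_one)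
open Vale.Agent.P207.H662 Vale.Agent.P207.H340

variable {m : ℕ} {M : Type} [TopologicalSpace M] [ChartedSpace (EV (m + 1)) M]
  [IsManifold 𝓘(ℝ, EV (m + 1)) ∞ M] {g : RMetric (EV (m + 1)) M}
variable [CompactSpace M] [T2Space M] [Nonempty (Fr g)]

/-- **the curvature of a quaternionic metric has the quaternionic form at every frame** -/
theorem qp_frCalc [ConnectedSpace M] (hL : LocSymmetric g) (hN : NegCurvature g)
    {b : ℝ} (hb : 0 < b) (hbd : ∀ f : Fr g, (act hL hN f).Nrm b ∧ ∀ v : En (m + 1), ‖v‖ = 1 →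
      finrank ℝ (End.eigenspace ((act hL hN f).K v) (b ^ 2)) = 3) (hm : 4 < m + 1) :
    (sc (frCalc g) (2 / b)).Qp (evA (g := g)) := by
  refine qp_of hL hN hb fun f => ?_
  have hS : (actS hL hN hb f).Nrm 2 := (hbd f).1.two
  have hv : ‖(ee 0 : En (m + 1))‖ = 1 := by simp
  have hb2 : b ^ 2 ≠ 0 := (pow_pos hb 2).ne'
  have hE : H575.E4 (actS hL hN hb f) (ee 0) = End.eigenspace ((act hL hN f).K (ee 0)) (b ^ 2) := by
    have h2 : (actS hL hN hb f).K (ee 0) = (4 / b ^ 2) • (act hL hN f).K (ee 0) := rfl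
    unfold H575.E4
    rw [h2]
    exact eig_scale _ (div_ne_zero (by norm_num) hb2) (by field_simp)
  have hd : finrank ℝ (H575.E4 (actS hL hN hb f) (ee 0)) = 3 := by
    rw [hE]
    exact (hbd f).2 (ee 0) hv
  have hdim : finrank ℝ (En (m + 1)) = m + 1 := by simp
  have hdec := H575.finrank_decomp hS hv
  rw [hd, hdim] at hdec
  have hpos : 0 < finrank ℝ (H575.E1 (actS hL hN hb f) (ee 0)) := by omega
  obtain ⟨x, hx⟩ := (finrank_pos_iff_exists_ne_zero).1 hpos
  have hx1 : (actS hL hN hb f).K (ee 0) (x : En (m + 1)) = x := H575.mem_E1.1 x.2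
  have hx0 : (x : En (m + 1)) ≠ 0 := fun h => hx (Subtype.ext h)
  obtain ⟨J, hJ⟩ := H575.exists_quat (by rw [hdim]; omega) hS hv hx1 hx0 hd
  exact ⟨J, ⟨hJ.skew, hJ.sq, hJ.i01⟩, hJ.R⟩

end Vale.Agent.P207.H442
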