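import Vale.Agent.P207.H442.LamLad
import Vale.Agent.P207.H442.QInst
import Vale.Agent.P207.H662.Geo

/-!
# P207 / H442: the quaternionic form of the curvature on the frame bundle
-/

open scoped Manifold ContDiff ENNReal Topology RealInnerProductSpace
open Bundle MeasureTheory Set Filter Module

set_option maxSynthPendingDepth 3
set_option linter.unusedSectionVars false

noncomputable section

namespace Vale.Agent.P207.H442

open Vale.Agent.P255 (RMetric)
open Vale.Agent.P207 Vale.Agent.P207.Q Vale.Agent.P207.Q.H545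
open Vale.Agent.P207.H747 (ACT En ee act act_R exists_rank_one)
open Vale.Agent.P207.H662 Vale.Agent.P207.H340

variable {m : ℕ} {M : Type} [TopologicalSpace M] [ChartedSpace (EV (m + 1)) M]
  [IsManifold 𝓘(ℝ, EV (m + 1)) ∞ M] {g : RMetric (EV (m + 1)) M}
variable [CompactSpace M] [T2Space M] [Nonempty (Fr g)]

/-- the evaluation at a frame -/
def evA (f : Fr g) : SmFr g →ₐ[ℝ] ℝ := AlgHom.ofLinearMap (ev f) (ev_one f) (ev_mul f)

theorem evA_apply (f : Fr g) (a : SmFr g) : evA f a = ev f a := rfl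

theorem qp_of [ConnectedSpace M] (hL : LocSymmetric g) (hN : NegCurvature g)
    {b : ℝ} (hb : 0 < b)
    (hq : ∀ f : Fr g, ∃ J : Fin 3 → En (m + 1) →ₗ[ℝ] En (m + 1), QJ J ∧ ∀ x y z,
      (actS hL hN hb f).R x y z = -(⟪y, z⟫ • x - ⟪x, z⟫ • y + ∑ a, (⟪J a y, z⟫ • J a x
      - ⟪J a x, z⟫ • J a y + (2 * ⟪x, J a y⟫) • J a z))) :
    (sc (frCalc g) (2 / b)).Qp (evA (g := g)) where
  ext a b h := ext_ev h
  quat f := by
    obtain ⟨J, hJ, hR⟩ := hq f
    refine ⟨wm J, -1, hJ.qt, hJ.quat, ?_⟩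
    have h1 := hJ.isQR hR
    have h2 : (fun i j k l => (actS hL hN hb f).R (ee i) (ee j) (ee k) l) =
        fun i j k l => evA f ((sc (frCalc g) (2 / b)).R i j k l) := by
      funext i j k l
      rw [evA_apply, ← actS_rc hL hN hb f i j k l]
      rfl
    rw [h2] at h1
    exact h1

end Vale.Agent.P207.H442
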